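import Vale.Agent.Lib.Helper9.P262.Cov

/-!
Signed initial sums in the Euclidean unit ball: a distribution on sign sequences under which
every initial sum has second moment at most `1` in every direction.

First part: for every dimension `d`, every length `N` and every sequence `v 0, v 1, ...` in the
closed unit ball of Euclidean `d`-space there are finitely many sign sequences `ε j`, `j < m`,
and probabilities `p j` (nonnegative, with sum `1`) such that for every `k ≤ N`, with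
`S j k = ∑ i < k, ε j i • v i`,

* for every vector `θ`: `∑ j, p j * (inner (S j k) θ) ^ 2 ≤ ‖θ‖ ^ 2`, and
* `∑ j, p j * ‖S j k‖ ^ 2 ≤ d`.

Second part: for every `d` there is a sequence in the unit ball for which every choice of signs
has `‖∑ i < d, ε i • v i‖ ^ 2 = d`, so the bound `d` of the first part cannot be lowered.
-/

open Finset

namespace Vale.Agent.Results.P262.CovariancePrefixes

theorem result :
    (∀ (d N : ℕ) (v : ℕ → EuclideanSpace ℝ (Fin d)), (∀ i, ‖v i‖ ≤ 1) →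
      ∃ (m : ℕ) (p : Fin m → ℝ) (ε : Fin m → ℕ → ℝ),
        (∀ j, 0 ≤ p j) ∧ ∑ j, p j = 1 ∧ (∀ j i, ε j i = 1 ∨ ε j i = -1) ∧
          ∀ k ≤ N,
            (∀ θ : EuclideanSpace ℝ (Fin d),
              ∑ j, p j * (inner ℝ (∑ i ∈ range k, ε j i • v i) θ) ^ 2 ≤ ‖θ‖ ^ 2) ∧
            ∑ j, p j * ‖∑ i ∈ range k, ε j i • v i‖ ^ 2 ≤ d) ∧
    (∀ d : ℕ, ∃ v : ℕ → EuclideanSpace ℝ (Fin d), (∀ i, ‖v i‖ ≤ 1) ∧
      ∀ ε : ℕ → ℝ, (∀ i, ε i = 1 ∨ ε i = -1) → ‖∑ i ∈ range d, ε i • v i‖ ^ 2 = d) :=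
  ⟨Vale.Agent.Lib.Helper9.P262C.covariance, Vale.Agent.Lib.Helper9.P262S.sharp⟩

end Vale.Agent.Results.P262.CovariancePrefixes
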