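import Mathlib

namespace Vale.Agent.Results.P262.SqrtDPlusOne

open scoped RealInnerProductSpace

section General

variable {V : Type*} [NormedAddCommGroup V]

/-- `Forces τ p ws`: starting from the running sum `p`, whatever signs are given to the vectors
of `ws` (taken in order), some running sum reached has squared norm at least `τ`. -/
def Forces (τ : ℝ) : V → List V → Prop
  | p, [] => τ ≤ ‖p‖ ^ 2
  | p, w :: ws => τ ≤ ‖p‖ ^ 2 ∨ (Forces τ (p + w) ws ∧ Forces τ (p - w) ws)

/-- `Reach p ws q`: `q` is obtained from `p` by adding the vectors of `ws` with some signs. -/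
def Reach : V → List V → V → Prop
  | p, [], q => q = p
  | p, w :: ws, q => Reach (p + w) ws q ∨ Reach (p - w) ws q

lemma forces_of_le {τ : ℝ} {p : V} (ws : List V) (h : τ ≤ ‖p‖ ^ 2) : Forces τ p ws := by
  cases ws with
  | nil => exact h
  | cons w ws => exact Or.inl h

lemma forces_mono {τ τ' : ℝ} (hτ : τ' ≤ τ) : ∀ (ws : List V) (p : V),
    Forces τ p ws → Forces τ' p ws := by
  intro ws
  induction ws with
  | nil => intro p h; exact hτ.trans h
  | cons w ws ih =>
    intro p h
    rcases h with h | ⟨h1, h2⟩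
    · exact Or.inl (hτ.trans h)
    · exact Or.inr ⟨ih _ h1, ih _ h2⟩

lemma forces_neg {τ : ℝ} : ∀ (ws : List V) (p : V), Forces τ p ws → Forces τ (-p) ws := by
  intro ws
  induction ws with
  | nil => intro p h; simpa [Forces] using h
  | cons w ws ih =>
    intro p h
    rcases h with h | ⟨h1, h2⟩
    · exact Or.inl (by simpa using h)
    · refine Or.inr ⟨?_, ?_⟩
      · have := ih _ h2
        rwa [neg_sub, ← neg_add_eq_sub] at this
      · have := ih _ h1
        rwa [neg_add, ← sub_eq_add_neg] at this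

lemma forces_append {τ : ℝ} (M : List V) : ∀ (L : List V) (p : V),
    (∀ q, Reach p L q → Forces τ q M) → Forces τ p (L ++ M) := by
  intro L
  induction L with
  | nil => intro p h; exact h p rfl
  | cons w L ih =>
    intro p h
    refine Or.inr ⟨ih _ fun q hq => h q (Or.inl hq), ih _ fun q hq => h q (Or.inr hq)⟩

lemma forces_spec [Module ℝ V] {τ : ℝ} : ∀ (ws : List V) (p : V), Forces τ p ws →
    ∀ ε : ℕ → ℝ, (∀ i, ε i = 1 ∨ ε i = -1) →
      ∃ k, k ≤ ws.length ∧ τ ≤ ‖p + ∑ i ∈ Finset.range k, ε i • ws.getD i 0‖ ^ 2 := by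
  intro ws
  induction ws with
  | nil =>
    intro p h ε _
    exact ⟨0, le_refl _, by simpa [Forces] using h⟩
  | cons w ws ih =>
    intro p h ε hε
    rcases h with h | ⟨h1, h2⟩
    · exact ⟨0, Nat.zero_le _, by simpa using h⟩
    · have key : ∀ q : V, Forces τ q ws → q = p + ε 0 • w →
          ∃ k, k ≤ (w :: ws).length ∧
            τ ≤ ‖p + ∑ i ∈ Finset.range k, ε i • (w :: ws).getD i 0‖ ^ 2 := by
        intro q hq hqp
        obtain ⟨k, hk, hk2⟩ := ih q hq (fun i => ε (i + 1)) (fun i => hε (i + 1))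
        refine ⟨k + 1, by simpa using hk, ?_⟩
        rw [Finset.sum_range_succ']
        have e1 : ∀ i, (w :: ws).getD (i + 1) 0 = ws.getD i 0 := fun i => rfl
        have e2 : (w :: ws).getD 0 0 = w := rfl
        simp only [e1, e2]
        rw [hqp] at hk2
        have e3 : p + (∑ i ∈ Finset.range k, ε (i + 1) • ws.getD i 0 + ε 0 • w)
            = p + ε 0 • w + ∑ i ∈ Finset.range k, ε (i + 1) • ws.getD i 0 := by abel
        rw [e3]
        exact hk2
      rcases hε 0 with h0 | h0
      · exact key _ h1 (by rw [h0, one_smul])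
      · exact key _ h2 (by rw [h0, neg_one_smul, sub_eq_add_neg])

end General

section Euclid

variable {d : ℕ}

/-- the vector with coordinate `α` at `i0`, `β` at `i1` and `0` elsewhere -/
noncomputable def pv (i0 i1 : Fin d) (α β : ℝ) : EuclideanSpace ℝ (Fin d) :=
  EuclideanSpace.single i0 α + EuclideanSpace.single i1 β

lemma inner_pv (i0 i1 : Fin d) (α β : ℝ) (p : EuclideanSpace ℝ (Fin d)) :
    ⟪p, pv i0 i1 α β⟫ = p i0 * α + p i1 * β := by
  simp only [pv, inner_add_right, EuclideanSpace.inner_single_right]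
  simp [mul_comm]

lemma pv_norm_sq {i0 i1 : Fin d} (h : i0 ≠ i1) (α β : ℝ) :
    ‖pv i0 i1 α β‖ ^ 2 = α ^ 2 + β ^ 2 := by
  rw [← real_inner_self_eq_norm_sq, inner_pv]
  simp [pv, h, h.symm]
  ring

lemma pv_apply0 {i0 i1 : Fin d} (h : i0 ≠ i1) (α β : ℝ) : (pv i0 i1 α β) i0 = α := by
  simp [pv, h]

lemma pv_apply1 {i0 i1 : Fin d} (h : i0 ≠ i1) (α β : ℝ) : (pv i0 i1 α β) i1 = β := by
  simp [pv, h.symm]

/-- the amount forced by `m` planar vectors -/
noncomputable def gain (m : ℕ) : ℝ := 2 - 2 * (1 / 2) ^ m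

lemma gain_succ (m : ℕ) : gain (m + 1) = 1 + gain m / 2 := by
  simp only [gain, pow_succ]
  ring

lemma gain_nonneg (m : ℕ) : 0 ≤ gain m := by
  have : ((1 : ℝ) / 2) ^ m ≤ 1 := pow_le_one₀ (by norm_num) (by norm_num)
  simp only [gain]
  linarith

lemma gain_lt (m : ℕ) : gain m < 2 := by
  have : 0 < ((1 : ℝ) / 2) ^ m := by positivity
  simp only [gain]
  linarith

lemma planar {i0 i1 : Fin d} (h01 : i0 ≠ i1) : ∀ (m : ℕ) (x y : ℝ), 1 ≤ x ^ 2 + y ^ 2 →
    ∃ ws : List (EuclideanSpace ℝ (Fin d)), (∀ w ∈ ws, ‖w‖ = 1) ∧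
      ∀ p : EuclideanSpace ℝ (Fin d), p i0 = x → p i1 = y →
        Forces (‖p‖ ^ 2 + gain m) p ws := by
  intro m
  induction m with
  | zero =>
    intro x y _
    refine ⟨[], by simp, ?_⟩
    intro p _ _
    simp [Forces, gain]
  | succ m ih =>
    intro x y hxy
    set t : ℝ := gain m / 4 with ht
    have ht0 : 0 ≤ t := by have := gain_nonneg m; simp only [ht]; linarith
    have ht1 : t ≤ 1 / 2 := by have := gain_lt m; simp only [ht]; linarith
    set r2 : ℝ := x ^ 2 + y ^ 2 with hr2
    have hr2pos : 0 < r2 := by linarith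
    have hrt : 0 ≤ r2 - t ^ 2 := by nlinarith
    set s : ℝ := Real.sqrt (r2 - t ^ 2) with hs
    have hs2 : s ^ 2 = r2 - t ^ 2 := Real.sq_sqrt hrt
    set α : ℝ := (t * x - y * s) / r2 with hα
    set β : ℝ := (t * y + x * s) / r2 with hβ
    have hunit : α ^ 2 + β ^ 2 = 1 := by
      rw [hα, hβ]
      field_simp
      nlinarith [hs2, hr2]
    have hinner : x * α + y * β = t := by
      rw [hα, hβ]
      field_simp
      nlinarith [hr2]
    have hnew : 1 ≤ (x - α) ^ 2 + (y - β) ^ 2 := by nlinarith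
    obtain ⟨ws, hws, hforce⟩ := ih (x - α) (y - β) hnew
    have hwn : ‖pv i0 i1 α β‖ ^ 2 = 1 := by rw [pv_norm_sq h01, hunit]
    refine ⟨pv i0 i1 α β :: ws, ?_, ?_⟩
    · intro w hw
      rcases List.mem_cons.mp hw with hw | hw
      · rw [hw]
        have h0 : 0 ≤ ‖pv i0 i1 α β‖ := norm_nonneg _
        nlinarith
      · exact hws w hw
    · intro p hp0 hp1
      have hin : ⟪p, pv i0 i1 α β⟫ = t := by rw [inner_pv, hp0, hp1, hinner]
      have hplus : ‖p + pv i0 i1 α β‖ ^ 2 = ‖p‖ ^ 2 + 2 * t + 1 := by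
        rw [norm_add_sq_real, hin, hwn]
      have hminus : ‖p - pv i0 i1 α β‖ ^ 2 = ‖p‖ ^ 2 - 2 * t + 1 := by
        rw [norm_sub_sq_real, hin, hwn]
      refine Or.inr ⟨forces_of_le ws ?_, ?_⟩
      · rw [hplus, gain_succ, ht]
        linarith
      · have h1 := hforce (p - pv i0 i1 α β)
          (by simp [pv_apply0 h01, hp0]) (by simp [pv_apply1 h01, hp1])
        have e : ‖p - pv i0 i1 α β‖ ^ 2 + gain m = ‖p‖ ^ 2 + gain (m + 1) := by
          rw [hminus, gain_succ, ht]
          ring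
        rwa [e] at h1

lemma reach_basis : ∀ (js : List (Fin d)), js.Nodup → ∀ (p q : EuclideanSpace ℝ (Fin d)),
    Reach p (js.map fun i => EuclideanSpace.single i (1 : ℝ)) q →
      ∀ i, (i ∈ js → (q i = p i + 1 ∨ q i = p i - 1)) ∧ (i ∉ js → q i = p i) := by
  intro js
  induction js with
  | nil =>
    intro _ p q h i
    have : q = p := h
    simp [this]
  | cons j js ih =>
    intro hnd p q h i
    have hj : j ∉ js := (List.nodup_cons.mp hnd).1
    have hjs : js.Nodup := (List.nodup_cons.mp hnd).2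
    have key : ∀ (c : ℝ) (p' : EuclideanSpace ℝ (Fin d)), (c = 1 ∨ c = -1) →
        (∀ i, p' i = p i + (if i = j then c else 0)) →
        Reach p' (js.map fun i => EuclideanSpace.single i (1 : ℝ)) q →
        (i ∈ j :: js → (q i = p i + 1 ∨ q i = p i - 1)) ∧ (i ∉ j :: js → q i = p i) := by
      intro c p' hc hp' hr
      have h1 := ih hjs p' q hr
      constructor
      · intro hi
        rcases List.mem_cons.mp hi with hi | hi
        · rw [hi]
          have := (h1 j).2 hj
          rw [this, hp' j]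
          rcases hc with hc | hc
          · left; simp [hc]
          · right; simp [hc]; ring
        · have hij : i ≠ j := fun e => hj (e ▸ hi)
          have := (h1 i).1 hi
          rw [hp' i] at this
          simpa [hij] using this
      · intro hi
        have hij : i ≠ j := fun e => hi (by simp [e])
        have hi' : i ∉ js := fun e => hi (List.mem_cons_of_mem _ e)
        have := (h1 i).2 hi'
        rw [hp' i] at this
        simpa [hij] using this
    rcases h with h | h
    · exact key 1 _ (Or.inl rfl) (fun i => by simp [PiLp.single_apply]) h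
    · exact key (-1) _ (Or.inr rfl) (fun i => by
        simp only [PiLp.sub_apply, PiLp.single_apply]
        split_ifs <;> ring) h

end Euclid

theorem result (d : ℕ) (hd : 2 ≤ d) (ρ : ℝ) (hρ : ρ < Real.sqrt (d + 1)) :
    ∃ (N : ℕ) (v : ℕ → EuclideanSpace ℝ (Fin d)), (∀ i, ‖v i‖ ≤ 1) ∧
      ∀ ε : ℕ → ℝ, (∀ i, ε i = 1 ∨ ε i = -1) →
        ∃ k, k ≤ N ∧ ρ < ‖∑ i ∈ Finset.range k, ε i • v i‖ := by
  by_cases hρ0 : ρ < 0
  · exact ⟨0, fun _ => 0, by simp, fun ε _ => ⟨0, le_refl _, by simpa using hρ0⟩⟩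
  push Not at hρ0
  have hρ2 : ρ ^ 2 < d + 1 := by
    have h1 := Real.sq_sqrt (show (0 : ℝ) ≤ d + 1 by positivity)
    nlinarith [Real.sqrt_nonneg ((d : ℝ) + 1)]
  obtain ⟨m, hm⟩ : ∃ m : ℕ, ((1 : ℝ) / 2) ^ m < (d + 1 - ρ ^ 2) / 2 :=
    exists_pow_lt_of_lt_one (by linarith) (by norm_num)
  set i0 : Fin d := ⟨0, by omega⟩ with hi0
  set i1 : Fin d := ⟨1, by omega⟩ with hi1
  have h01 : i0 ≠ i1 := by simp [hi0, hi1, Fin.ext_iff]
  obtain ⟨ws, hws, hforce⟩ := planar h01 m 1 0 (by norm_num)
  set js : List (Fin d) := (List.finRange d).filter (fun i => decide (i ≠ i1)) with hjs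
  have hnd : js.Nodup := (List.nodup_finRange d).filter _
  have hmem : ∀ i, i ∈ js ↔ i ≠ i1 := by intro i; simp [hjs]
  set L : List (EuclideanSpace ℝ (Fin d)) :=
    js.map fun i => EuclideanSpace.single i (1 : ℝ) with hL
  have hF : Forces ((d : ℝ) - 1 + gain m) (0 : EuclideanSpace ℝ (Fin d)) (L ++ ws) := by
    apply forces_append
    intro q hq
    have hq' := reach_basis js hnd 0 q hq
    have hq1 : q i1 = 0 := by simpa using (hq' i1).2 (by simp [hmem])
    have hqi : ∀ i, i ≠ i1 → q i = 1 ∨ q i = -1 := by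
      intro i hi
      have := (hq' i).1 ((hmem i).2 hi)
      simpa using this
    have hnorm : ‖q‖ ^ 2 = (d : ℝ) - 1 := by
      rw [EuclideanSpace.real_norm_sq_eq]
      have hsq : ∀ i, q i ^ 2 = 1 - if i = i1 then 1 else 0 := by
        intro i
        split_ifs with h
        · rw [h, hq1]; norm_num
        · rcases hqi i h with h' | h' <;> rw [h'] <;> norm_num
      simp [hsq, Finset.sum_sub_distrib]
    rcases hqi i0 h01 with h0 | h0
    · have := hforce q h0 hq1
      rwa [hnorm] at this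
    · have h2 := hforce (-q) (by simp [h0]) (by simp [hq1])
      rw [norm_neg, hnorm] at h2
      have h3 := forces_neg ws _ h2
      rwa [neg_neg] at h3
  refine ⟨(L ++ ws).length, fun i => (L ++ ws).getD i 0, ?_, ?_⟩
  · intro i
    show ‖(L ++ ws).getD i 0‖ ≤ 1
    by_cases hi : i < (L ++ ws).length
    · have hmem' : (L ++ ws).getD i 0 ∈ L ++ ws := by
        rw [List.getD_eq_getElem _ _ hi]
        exact List.getElem_mem hi
      rcases List.mem_append.mp hmem' with h | h
      · obtain ⟨j, _, hj⟩ := List.mem_map.mp h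
        rw [← hj]
        simp
      · exact (hws _ h).le
    · rw [List.getD_eq_default _ _ (by omega)]
      simp
  · intro ε hε
    obtain ⟨k, hk, hk2⟩ := forces_spec (L ++ ws) 0 hF ε hε
    refine ⟨k, hk, ?_⟩
    rw [zero_add] at hk2
    have hτ : ρ ^ 2 < (d : ℝ) - 1 + gain m := by
      simp only [gain]
      linarith
    by_contra hcon
    push Not at hcon
    have h0 := norm_nonneg (∑ i ∈ Finset.range k, ε i • (L ++ ws).getD i 0)
    nlinarith

end Vale.Agent.Results.P262.SqrtDPlusOne
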