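import Vale.Agent.Lib.Helper7.P262S

/-!
Rearrangements of zero-sum families in the Euclidean unit ball, mean square form.

First part: for every dimension `d`, every `N` and every family `v 0, ..., v (N - 1)` of vectors of
the closed unit ball of Euclidean `d`-space with sum zero there is a rearrangement `σ` such that

  `∑ k, ‖v (σ 0) + ... + v (σ k)‖ ^ 2 ≤ d * N`,

the sum being over the `N` initial sums of the rearranged family. So the mean of the squared norms
of these sums can be made at most `d`, with no dependence on `N`.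

Second part: for every `d` there is such a family with `N = 2 * d` for which every rearrangement
has `∑ k, ‖v (σ 0) + ... + v (σ k)‖ ^ 2 ≥ (d ^ 2 - 1) / 6`, so the mean is at least a twelfth of
`d - 1 / d` and the order `d` of the first part cannot be lowered.
-/

namespace Vale.Agent.Results.P262.SteinitzMeanSquare

theorem result :
    (∀ (d N : ℕ) (v : Fin N → EuclideanSpace ℝ (Fin d)), (∀ i, ‖v i‖ ≤ 1) → ∑ i, v i = 0 →
      ∃ σ : Equiv.Perm (Fin N),
        ∑ k : Fin N, ‖∑ i ∈ Finset.Iic k, v (σ i)‖ ^ 2 ≤ d * N) ∧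
    (∀ d : ℕ, ∃ v : Fin (2 * d) → EuclideanSpace ℝ (Fin d), (∀ i, ‖v i‖ ≤ 1) ∧ ∑ i, v i = 0 ∧
      ∀ σ : Equiv.Perm (Fin (2 * d)),
        ((d : ℝ) ^ 2 - 1) / 6 ≤ ∑ k : Fin (2 * d), ‖∑ i ∈ Finset.Iic k, v (σ i)‖ ^ 2) :=
  ⟨Vale.Agent.Lib.Helper7.P262S.steinitz_mean_square,
    fun d => ⟨Vale.Agent.Lib.Helper7.P262S.fam d, Vale.Agent.Lib.Helper7.P262S.norm_fam_le d,
      Vale.Agent.Lib.Helper7.P262S.sum_fam d, Vale.Agent.Lib.Helper7.P262S.fam_lower d⟩⟩

end Vale.Agent.Results.P262.SteinitzMeanSquare
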