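import Mathlib

/-!
# P262: the vector relaxation of balancing with bounded initial sums

Replace the signs in `∑ i < s, ε i • u i` by unit vectors `w i` of some Euclidean space; the
role of the squared norm of the signed sum is played by
`∑ i < s, ∑ j < s, ⟪w i, w j⟫ * ⟪u i, u j⟫` (for `w i = ε i • e` with a unit vector `e` the two
agree).

For every sequence `u 0, u 1, ...` in the unit ball of Euclidean `d`-space and every `N` there
are unit vectors `w 0, ..., w (N-1)` such that, for every `s ≤ N` and every `θ`,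
`‖∑ i < s, ⟪u i, θ⟫ • w i‖ ≤ ‖θ‖`, and consequently
`∑ i < s, ∑ j < s, ⟪w i, w j⟫ * ⟪u i, u j⟫ ≤ d`.  For an orthonormal sequence of length `d` the
last quantity equals `d` for every choice of unit vectors.
-/

namespace Vale.Agent.Results.P262.VectorRelaxation

open scoped RealInnerProductSpace
open Finset

section Construction

variable {E F : Type*} [NormedAddCommGroup E] [InnerProductSpace ℝ E]
  [NormedAddCommGroup F] [InnerProductSpace ℝ F]

/-- The inductive construction: `e` is a sequence in `F` whose first `N` members are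
orthonormal. -/
theorem construction (u : ℕ → E) (hu : ∀ i, ‖u i‖ ≤ 1) (N : ℕ) (e : ℕ → F)
    (he1 : ∀ j < N, ‖e j‖ = 1) (he0 : ∀ i < N, ∀ j < N, i ≠ j → ⟪e i, e j⟫ = 0) :
    ∀ t ≤ N, ∃ w : ℕ → F, (∀ i < t, ‖w i‖ = 1) ∧
      (∀ i < t, ∀ j, t ≤ j → j < N → ⟪w i, e j⟫ = 0) ∧
      (∀ s ≤ t, ∀ θ : E, ‖∑ i ∈ range s, ⟪u i, θ⟫ • w i‖ ≤ ‖θ‖) := by
  intro t
  induction t with
  | zero =>
    intro _
    refine ⟨fun _ => 0, fun i hi => absurd hi (Nat.not_lt_zero i),
      fun i hi => absurd hi (Nat.not_lt_zero i), fun s hs θ => ?_⟩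
    have : s = 0 := Nat.le_zero.mp hs
    subst this
    simp
  | succ t ih =>
    intro htN
    have htN' : t < N := htN
    obtain ⟨w, hw1, hw2, hw3⟩ := ih (Nat.le_of_succ_le htN)
    set c : F := ∑ i ∈ range t, ⟪u i, u t⟫ • w i with hc
    have hcn : ‖c‖ ≤ 1 := (hw3 t le_rfl (u t)).trans (hu t)
    have hc0 : 0 ≤ ‖c‖ := norm_nonneg c
    have hcsq : ‖c‖ ^ 2 ≤ 1 := by nlinarith
    set β : ℝ := Real.sqrt (1 - ‖c‖ ^ 2) with hβ
    have hβ0 : 0 ≤ β := Real.sqrt_nonneg _
    have hβsq : β ^ 2 = 1 - ‖c‖ ^ 2 := Real.sq_sqrt (by linarith)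
    -- sums of the `w i`, `i < t`, are orthogonal to `e j` for `t ≤ j < N`
    have horth : ∀ (a : ℕ → ℝ) (j : ℕ), t ≤ j → j < N →
        ⟪∑ i ∈ range t, a i • w i, e j⟫ = 0 := by
      intro a j htj hjN
      rw [sum_inner]
      refine Finset.sum_eq_zero fun i hi => ?_
      rw [inner_smul_left, hw2 i (Finset.mem_range.mp hi) j htj hjN]
      simp
    have hce : ⟪c, e t⟫ = 0 := horth _ t le_rfl htN'
    set v : F := -c + β • e t with hv
    have hvn : ‖v‖ = 1 := by
      have h1 : ‖v‖ ^ 2 = 1 := by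
        rw [hv, ← real_inner_self_eq_norm_sq]
        simp only [inner_add_left, inner_add_right, inner_neg_left, inner_neg_right,
          inner_smul_left, inner_smul_right, real_inner_self_eq_norm_sq, hce,
          real_inner_comm c (e t), he1 t htN']
        simp only [RCLike.conj_to_real]
        nlinarith
      have h2 : 0 ≤ ‖v‖ := norm_nonneg v
      nlinarith
    refine ⟨Function.update w t v, ?_, ?_, ?_⟩
    · intro i hi
      by_cases hit : i = t
      · subst hit
        simp [hvn]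
      · rw [Function.update_of_ne hit]
        exact hw1 i (lt_of_le_of_ne (Nat.lt_succ_iff.mp hi) hit)
    · intro i hi j htj hjN
      by_cases hit : i = t
      · subst hit
        rw [Function.update_self, hv, inner_add_left, inner_neg_left, inner_smul_left,
          horth _ j (Nat.le_of_succ_le htj) hjN,
          he0 i htN' j hjN (by omega)]
        simp
      · rw [Function.update_of_ne hit]
        exact hw2 i (lt_of_le_of_ne (Nat.lt_succ_iff.mp hi) hit) j (Nat.le_of_succ_le htj) hjN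
    · intro s hs θ
      have hcongr : ∀ s' ≤ t, ∑ i ∈ range s', ⟪u i, θ⟫ • Function.update w t v i
          = ∑ i ∈ range s', ⟪u i, θ⟫ • w i := by
        intro s' hs'
        refine Finset.sum_congr rfl fun i hi => ?_
        have : i ≠ t := by
          have := Finset.mem_range.mp hi
          omega
        rw [Function.update_of_ne this]
      rcases Nat.lt_or_ge s (t + 1) with hlt | hge
      · rw [hcongr s (Nat.lt_succ_iff.mp hlt)]
        exact hw3 s (Nat.lt_succ_iff.mp hlt) θ
      · have hst : s = t + 1 := le_antisymm hs hge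
        subst hst
        rw [Finset.sum_range_succ, hcongr t le_rfl, Function.update_self]
        set a : ℝ := ⟪u t, θ⟫ with ha
        set θ' : E := θ - a • u t with hθ'
        have hsplit : ∑ i ∈ range t, ⟪u i, θ⟫ • w i + a • v
            = ∑ i ∈ range t, ⟪u i, θ'⟫ • w i + (a * β) • e t := by
          have h1 : ∑ i ∈ range t, ⟪u i, θ'⟫ • w i
              = ∑ i ∈ range t, ⟪u i, θ⟫ • w i - a • c := by
            rw [hc, Finset.smul_sum, ← Finset.sum_sub_distrib]
            refine Finset.sum_congr rfl fun i _ => ?_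
            rw [hθ', inner_sub_right, inner_smul_right, sub_smul, smul_smul]
          rw [h1, hv, smul_add, smul_neg, smul_smul]
          abel
        rw [hsplit]
        set m : F := ∑ i ∈ range t, ⟪u i, θ'⟫ • w i with hm
        have hme : ⟪m, e t⟫ = 0 := horth _ t le_rfl htN'
        have hmn : ‖m‖ ≤ ‖θ'‖ := hw3 t le_rfl θ'
        have hθ'sq : ‖θ'‖ ^ 2 ≤ ‖θ‖ ^ 2 - a ^ 2 := by
          have h1 : ‖θ'‖ ^ 2 = ‖θ‖ ^ 2 - 2 * a ^ 2 + a ^ 2 * ‖u t‖ ^ 2 := by
            rw [hθ', ← real_inner_self_eq_norm_sq]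
            simp only [inner_sub_left, inner_sub_right, inner_smul_left, inner_smul_right,
              real_inner_self_eq_norm_sq, RCLike.conj_to_real]
            have hswap : ⟪θ, u t⟫ = a := by
              rw [ha]
              exact real_inner_comm (u t) θ
            rw [hswap]
            ring
          have h2 : ‖u t‖ ^ 2 ≤ 1 := by
            have := hu t
            have h0 := norm_nonneg (u t)
            nlinarith
          have h3 : 0 ≤ a ^ 2 := sq_nonneg a
          nlinarith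
        have hsq : ‖m + (a * β) • e t‖ ^ 2 = ‖m‖ ^ 2 + (a * β) ^ 2 := by
          rw [← real_inner_self_eq_norm_sq]
          simp only [inner_add_left, inner_add_right, inner_smul_left, inner_smul_right,
            real_inner_self_eq_norm_sq, hme, real_inner_comm m (e t), he1 t htN',
            RCLike.conj_to_real]
          ring
        have hm0 : 0 ≤ ‖m‖ := norm_nonneg m
        have hθ'0 : 0 ≤ ‖θ'‖ := norm_nonneg θ'
        have hmsq : ‖m‖ ^ 2 ≤ ‖θ'‖ ^ 2 := by nlinarith
        have hfin : ‖m + (a * β) • e t‖ ^ 2 ≤ ‖θ‖ ^ 2 := by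
          rw [hsq]
          have h4 : (a * β) ^ 2 ≤ a ^ 2 := by
            have : (a * β) ^ 2 = a ^ 2 * β ^ 2 := by ring
            rw [this, hβsq]
            nlinarith [sq_nonneg a, sq_nonneg ‖c‖]
          linarith
        exact (pow_le_pow_iff_left₀ (norm_nonneg _) (norm_nonneg _) two_ne_zero).mp hfin

end Construction

/-- The squared norm of a linear combination as a double sum. -/
theorem norm_sq_sum_smul {F : Type*} [NormedAddCommGroup F] [InnerProductSpace ℝ F]
    (s : Finset ℕ) (a : ℕ → ℝ) (w : ℕ → F) :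
    ‖∑ i ∈ s, a i • w i‖ ^ 2 = ∑ i ∈ s, ∑ j ∈ s, a i * a j * ⟪w i, w j⟫ := by
  rw [← real_inner_self_eq_norm_sq, sum_inner]
  refine Finset.sum_congr rfl fun i _ => ?_
  rw [inner_sum]
  refine Finset.sum_congr rfl fun j _ => ?_
  rw [real_inner_smul_left, real_inner_smul_right]
  ring

/-- The bound for all directions gives the bound for the double sum. -/
theorem frob_le {d : ℕ} {F : Type*} [NormedAddCommGroup F] [InnerProductSpace ℝ F]
    (u : ℕ → EuclideanSpace ℝ (Fin d)) (w : ℕ → F) (s : ℕ)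
    (h : ∀ θ : EuclideanSpace ℝ (Fin d), ‖∑ i ∈ range s, ⟪u i, θ⟫ • w i‖ ≤ ‖θ‖) :
    ∑ i ∈ range s, ∑ j ∈ range s, ⟪w i, w j⟫ * ⟪u i, u j⟫ ≤ d := by
  set b := EuclideanSpace.basisFun (Fin d) ℝ with hb
  have key : ∑ i ∈ range s, ∑ j ∈ range s, ⟪w i, w j⟫ * ⟪u i, u j⟫
      = ∑ k : Fin d, ‖∑ i ∈ range s, ⟪u i, b k⟫ • w i‖ ^ 2 := by
    have h1 : ∀ k : Fin d, ‖∑ i ∈ range s, ⟪u i, b k⟫ • w i‖ ^ 2
        = ∑ i ∈ range s, ∑ j ∈ range s, ⟪u i, b k⟫ * ⟪u j, b k⟫ * ⟪w i, w j⟫ :=
      fun k => norm_sq_sum_smul (range s) (fun i => ⟪u i, b k⟫) w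
    simp only [h1]
    have h2 : ∑ k : Fin d, ∑ i ∈ range s, ∑ j ∈ range s,
          ⟪u i, b k⟫ * ⟪u j, b k⟫ * ⟪w i, w j⟫
        = ∑ i ∈ range s, ∑ j ∈ range s, ∑ k : Fin d,
          ⟪u i, b k⟫ * ⟪u j, b k⟫ * ⟪w i, w j⟫ := by
      rw [Finset.sum_comm]
      refine Finset.sum_congr rfl fun i _ => ?_
      rw [Finset.sum_comm]
    rw [h2]
    refine Finset.sum_congr rfl fun i _ => Finset.sum_congr rfl fun j _ => ?_
    rw [← b.sum_inner_mul_inner (u i) (u j), Finset.mul_sum]
    refine Finset.sum_congr rfl fun k _ => ?_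
    rw [real_inner_comm (u j) (b k)]
    ring
  rw [key]
  calc ∑ k : Fin d, ‖∑ i ∈ range s, ⟪u i, b k⟫ • w i‖ ^ 2 ≤ ∑ k : Fin d, (1 : ℝ) := by
        refine Finset.sum_le_sum fun k _ => ?_
        have h2 := h (b k)
        have h3 : ‖b k‖ = 1 := b.orthonormal.1 k
        rw [h3] at h2
        have h4 := norm_nonneg (∑ i ∈ range s, ⟪u i, b k⟫ • w i)
        nlinarith
    _ = d := by simp

/-- **Vector relaxation of balancing with bounded initial sums.**
(1) For every sequence `u` in the unit ball of Euclidean `d`-space and every `N` there are unit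
vectors `w 0, ..., w (N-1)` in Euclidean `N`-space with `‖∑ i < s, ⟪u i, θ⟫ • w i‖ ≤ ‖θ‖` for
all `s ≤ N` and all `θ`, and hence `∑ i < s, ∑ j < s, ⟪w i, w j⟫ * ⟪u i, u j⟫ ≤ d`.
(2) For `w i = ε i • e` with a unit vector `e` the double sum is `‖∑ i < s, ε i • u i‖ ^ 2`.
(3) For every `d` there is a sequence in the unit ball for which the double sum with `s = d`
equals `d` for every choice of unit vectors. -/
theorem result :
    (∀ (d : ℕ) (u : ℕ → EuclideanSpace ℝ (Fin d)), (∀ i, ‖u i‖ ≤ 1) → ∀ N : ℕ,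
      ∃ w : ℕ → EuclideanSpace ℝ (Fin N), (∀ i < N, ‖w i‖ = 1) ∧
        ∀ s ≤ N, (∀ θ : EuclideanSpace ℝ (Fin d), ‖∑ i ∈ range s, ⟪u i, θ⟫ • w i‖ ≤ ‖θ‖) ∧
          ∑ i ∈ range s, ∑ j ∈ range s, ⟪w i, w j⟫ * ⟪u i, u j⟫ ≤ d) ∧
    (∀ (d M : ℕ) (u : ℕ → EuclideanSpace ℝ (Fin d)) (ε : ℕ → ℝ)
        (e : EuclideanSpace ℝ (Fin M)), ‖e‖ = 1 → ∀ s : ℕ,
      ∑ i ∈ range s, ∑ j ∈ range s, ⟪ε i • e, ε j • e⟫ * ⟪u i, u j⟫
        = ‖∑ i ∈ range s, ε i • u i‖ ^ 2) ∧
    (∀ d : ℕ, ∃ u : ℕ → EuclideanSpace ℝ (Fin d), (∀ i, ‖u i‖ ≤ 1) ∧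
      ∀ (M : ℕ) (w : ℕ → EuclideanSpace ℝ (Fin M)), (∀ i < d, ‖w i‖ = 1) →
        ∑ i ∈ range d, ∑ j ∈ range d, ⟪w i, w j⟫ * ⟪u i, u j⟫ = d) := by
  refine ⟨?_, ?_, ?_⟩
  · intro d u hu N
    set b := EuclideanSpace.basisFun (Fin N) ℝ with hb
    obtain ⟨w, hw1, -, hw3⟩ := construction u hu N
      (fun j => if h : j < N then b ⟨j, h⟩ else 0)
      (fun j hj => by
        simp only [dif_pos hj]
        exact b.orthonormal.1 _)
      (fun i hi j hj hij => by
        simp only [dif_pos hi, dif_pos hj]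
        exact b.orthonormal.2 (fun h => hij (congrArg Fin.val h)))
      N le_rfl
    exact ⟨w, hw1, fun s hs => ⟨hw3 s hs, frob_le u w s (hw3 s hs)⟩⟩
  · intro d M u ε e he s
    rw [norm_sq_sum_smul (range s) ε u]
    refine Finset.sum_congr rfl fun i _ => Finset.sum_congr rfl fun j _ => ?_
    rw [real_inner_smul_left, real_inner_smul_right, real_inner_self_eq_norm_sq, he]
    ring
  · intro d
    set b := EuclideanSpace.basisFun (Fin d) ℝ with hb
    refine ⟨fun i => if h : i < d then b ⟨i, h⟩ else 0, ?_, ?_⟩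
    · intro i
      by_cases h : i < d
      · simp only [dif_pos h]
        exact le_of_eq (b.orthonormal.1 _)
      · simp only [dif_neg h]
        simp
    · intro M w hw
      have h1 : ∀ i ∈ range d, ∑ j ∈ range d, ⟪w i, w j⟫ *
          ⟪(if h : i < d then b ⟨i, h⟩ else 0 : EuclideanSpace ℝ (Fin d)),
            (if h : j < d then b ⟨j, h⟩ else 0 : EuclideanSpace ℝ (Fin d))⟫ = 1 := by
        intro i hi
        have hi' := Finset.mem_range.mp hi
        rw [Finset.sum_eq_single_of_mem i hi]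
        · simp only [dif_pos hi']
          rw [real_inner_self_eq_norm_sq, real_inner_self_eq_norm_sq, hw i hi',
            b.orthonormal.1 _]
          norm_num
        · intro j hj hji
          have hj' := Finset.mem_range.mp hj
          simp only [dif_pos hi', dif_pos hj']
          rw [b.orthonormal.2 (fun h => hji (congrArg Fin.val h).symm)]
          ring
      rw [Finset.sum_congr rfl h1]
      simp

end Vale.Agent.Results.P262.VectorRelaxation
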